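import Vale.Agent.Results.P013.SmallReciprocalSum

/-!
# P013 (growth of Jacobsthal's function): the linear bound, in plain form

Let `n` be a positive integer, `k` the number of distinct primes dividing `n` and `s` the sum of
their reciprocals, and assume `s < 1`.  Then

1. some `k` consecutive integers `a, a + 1, ..., a + k - 1` contain no integer coprime to `n`;
2. for every natural number `m > (k - s) / (1 - s)`, every `m` consecutive integers
   `a, a + 1, ..., a + m - 1` contain an integer coprime to `n`.

This is the content of the hand-in `SmallReciprocalSum`, with Jacobsthal's function written out.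
-/

namespace Vale.Agent.Results.P013.CoprimeInIntervals

theorem result (n : ℕ) (hn : 0 < n)
    (hσ : ∑ p ∈ n.primeFactors, (1 / (p : ℝ)) < 1) :
    (∃ a : ℤ, ∀ i : ℕ, i < n.primeFactors.card → ¬ IsCoprime (a + (i : ℤ)) (n : ℤ)) ∧
    (∀ m : ℕ, ((n.primeFactors.card : ℝ) - ∑ p ∈ n.primeFactors, (1 / (p : ℝ))) /
        (1 - ∑ p ∈ n.primeFactors, (1 / (p : ℝ))) < (m : ℝ) →
      ∀ a : ℤ, ∃ i : ℕ, i < m ∧ IsCoprime (a + (i : ℤ)) (n : ℤ)) :=
  ⟨Vale.Agent.Results.P013.SmallReciprocalSum.exists_block n, fun m hm a =>
    Vale.Agent.Results.P013.SmallReciprocalSum.exists_coprime n hn hσ m hm a⟩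

end Vale.Agent.Results.P013.CoprimeInIntervals
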