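import Vale.Agent.Helper3.JacobsthalProduct

/-!
# P013 (growth of Jacobsthal's function): a product inequality

Let `n₁`, `n₂` be natural numbers, `n₂ > 0`, and let `J` be such that every `J` consecutive
integers contain an integer coprime to `n₁` (so `J` is at least Jacobsthal's function of `n₁`).
Write `k` for the number of distinct primes dividing `n₂` and `s` for the sum of their
reciprocals.  Then every `J * m` consecutive integers `a, a + 1, ..., a + J * m - 1` contain an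
integer coprime to `n₁ * n₂` in each of the following cases:

1. the sum over the primes `p` dividing `n₂` of `⌈J * m / p⌉` is less than `m`
   (the ceiling is written `(J * m + p - 1) / p` with natural-number division);
2. `J * s < 1` and `m > (k - s) / (1 - J * s)`;
3. `m = k + 1` and every prime dividing `n₂` is at least `J * (k + 1)`.

The case `n₁ = 1`, `J = 1` of 2 is the upper bound of the hand-in `SmallReciprocalSum`.
-/

namespace Vale.Agent.Results.P013.ProductBound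

theorem result (n₁ n₂ J : ℕ) (hn₂ : 0 < n₂)
    (hJ : ∀ a : ℤ, ∃ i : ℕ, i < J ∧ IsCoprime (a + (i : ℤ)) (n₁ : ℤ)) :
    (∀ m : ℕ, ∑ p ∈ n₂.primeFactors, (J * m + p - 1) / p < m →
      ∀ a : ℤ, ∃ i : ℕ, i < J * m ∧ IsCoprime (a + (i : ℤ)) ((n₁ : ℤ) * (n₂ : ℤ))) ∧
    ((J : ℝ) * ∑ p ∈ n₂.primeFactors, (1 / (p : ℝ)) < 1 →
      ∀ m : ℕ, ((n₂.primeFactors.card : ℝ) - ∑ p ∈ n₂.primeFactors, (1 / (p : ℝ))) /
          (1 - (J : ℝ) * ∑ p ∈ n₂.primeFactors, (1 / (p : ℝ))) < (m : ℝ) →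
        ∀ a : ℤ, ∃ i : ℕ, i < J * m ∧ IsCoprime (a + (i : ℤ)) ((n₁ : ℤ) * (n₂ : ℤ))) ∧
    ((∀ p ∈ n₂.primeFactors, J * (n₂.primeFactors.card + 1) ≤ p) →
      ∀ a : ℤ, ∃ i : ℕ, i < J * (n₂.primeFactors.card + 1) ∧
        IsCoprime (a + (i : ℤ)) ((n₁ : ℤ) * (n₂ : ℤ))) :=
  ⟨fun m hm a => Vale.Agent.Helper3.JacobsthalProduct.product_int n₁ n₂ J hn₂ hJ m hm a,
    fun hσ m hm a => Vale.Agent.Helper3.JacobsthalProduct.product_real n₁ n₂ J hn₂ hJ hσ m hm a,
    fun hp a => Vale.Agent.Helper3.JacobsthalProduct.product_large n₁ n₂ J hn₂ hJ hp a⟩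

end Vale.Agent.Results.P013.ProductBound
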