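import Mathlib

/-!
# P013 (growth of Jacobsthal's function): a linear bound when the reciprocal sum is below one

For a positive integer `n` let `j n` be Jacobsthal's function: the least positive `m` such that
every block of `m` consecutive integers contains an integer coprime to `n`.  Let `k` be the number
of distinct primes dividing `n` and `σ` the sum of their reciprocals.  We show: if `σ < 1` then

  `k + 1 ≤ j n ≤ (k - σ) / (1 - σ) + 1`.

So on every class of integers `n` whose prime divisors have reciprocal sum at most `1 - δ`,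
Jacobsthal's function is of exact linear order in the number of prime divisors.
-/

namespace Vale.Agent.Results.P013.SmallReciprocalSum

open Finset

/-- Jacobsthal's function: the least positive `m` such that among any `m` consecutive integers
`a, a + 1, ..., a + m - 1` (arbitrary integer starting point `a`) one is coprime to `n`. -/
noncomputable def jacobsthal (n : ℕ) : ℕ :=
  sInf {m : ℕ | 0 < m ∧ ∀ a : ℤ, ∃ i : ℕ, i < m ∧ IsCoprime (a + (i : ℤ)) (n : ℤ)}

/-- The number of `i < m` with `p ∣ a + i` is at most `(m + p - 1) / p`. -/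
lemma card_dvd_le (p : ℕ) (hp : 0 < p) (a : ℤ) (m : ℕ) :
    ((Finset.range m).filter (fun i : ℕ => (p : ℤ) ∣ a + (i : ℤ))).card ≤ (m + p - 1) / p := by
  -- the residue class
  set v : ℕ := ((-a) % (p : ℤ)).toNat with hv
  have hpz : (0 : ℤ) < (p : ℤ) := by exact_mod_cast hp
  have hvz : ((v : ℕ) : ℤ) = (-a) % (p : ℤ) := by
    rw [hv]; exact Int.toNat_of_nonneg (Int.emod_nonneg _ (ne_of_gt hpz))
  have hsub : (Finset.range m).filter (fun i : ℕ => (p : ℤ) ∣ a + (i : ℤ)) ⊆
      (Finset.range m).filter (fun i : ℕ => i ≡ v [MOD p]) := by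
    intro i hi
    rw [Finset.mem_filter] at hi ⊢
    refine ⟨hi.1, ?_⟩
    have h1 : ((i : ℕ) : ℤ) ≡ ((v : ℕ) : ℤ) [ZMOD (p : ℤ)] := by
      rw [hvz]
      have h2 : ((i : ℕ) : ℤ) ≡ -a [ZMOD (p : ℤ)] := by
        rw [Int.modEq_iff_dvd]
        have : -a - (i : ℤ) = -(a + (i : ℤ)) := by ring
        rw [this]
        exact (dvd_neg).mpr hi.2
      exact h2.trans (Int.mod_modEq _ _).symm
    exact (Int.natCast_modEq_iff).mp h1
  have hcount : ((Finset.range m).filter (fun i : ℕ => i ≡ v [MOD p])).card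
      = m / p + if v % p < m % p then 1 else 0 := by
    rw [← Nat.count_eq_card_filter_range]
    exact Nat.count_modEq_card m hp v
  have hle : m / p + (if v % p < m % p then 1 else 0) ≤ (m + p - 1) / p := by
    by_cases h : v % p < m % p
    · rw [if_pos h]
      have hm : 1 ≤ m % p := by omega
      rw [Nat.le_div_iff_mul_le hp]
      have := Nat.div_add_mod m p
      have h3 : (m / p + 1) * p = p * (m / p) + p := by ring
      omega
    · rw [if_neg h]
      simp only [add_zero]
      apply Nat.div_le_div_right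
      omega
  calc _ ≤ ((Finset.range m).filter (fun i : ℕ => i ≡ v [MOD p])).card :=
        Finset.card_le_card hsub
    _ = _ := hcount
    _ ≤ _ := hle

/-- If no `a + i`, `i < m`, is coprime to `n`, then `m ≤ ∑_{p ∣ n} (m + p - 1) / p`. -/
lemma block_le (n : ℕ) (hn : 0 < n) (a : ℤ) (m : ℕ)
    (h : ∀ i : ℕ, i < m → ¬ IsCoprime (a + (i : ℤ)) (n : ℤ)) :
    m ≤ ∑ p ∈ n.primeFactors, (m + p - 1) / p := by
  have hcover : Finset.range m ⊆ n.primeFactors.biUnion
      (fun p => (Finset.range m).filter (fun i : ℕ => (p : ℤ) ∣ a + (i : ℤ))) := by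
    intro i hi
    rw [Finset.mem_range] at hi
    have hnc := h i hi
    rw [Int.isCoprime_iff_gcd_eq_one] at hnc
    obtain ⟨p, hp, hpd⟩ := Nat.exists_prime_and_dvd hnc
    have h1 : (p : ℤ) ∣ a + (i : ℤ) := by
      have := Int.gcd_dvd_left (a + (i : ℤ)) (n : ℤ)
      exact (Int.natCast_dvd_natCast.mpr hpd).trans this
    have h2 : (p : ℤ) ∣ (n : ℤ) := by
      have := Int.gcd_dvd_right (a + (i : ℤ)) (n : ℤ)
      exact (Int.natCast_dvd_natCast.mpr hpd).trans this
    have h3 : p ∣ n := Int.natCast_dvd_natCast.mp h2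
    rw [Finset.mem_biUnion]
    refine ⟨p, ?_, ?_⟩
    · rw [Nat.mem_primeFactors]; exact ⟨hp, h3, by omega⟩
    · rw [Finset.mem_filter, Finset.mem_range]; exact ⟨hi, h1⟩
  calc m = (Finset.range m).card := (Finset.card_range m).symm
    _ ≤ _ := Finset.card_le_card hcover
    _ ≤ ∑ p ∈ n.primeFactors,
          ((Finset.range m).filter (fun i : ℕ => (p : ℤ) ∣ a + (i : ℤ))).card :=
        Finset.card_biUnion_le
    _ ≤ _ := by
        apply Finset.sum_le_sum
        intro p hp
        exact card_dvd_le p (Nat.pos_of_mem_primeFactors hp) a m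

/-- Upper bound: a block longer than `(k - σ) / (1 - σ)` contains an integer coprime to `n`. -/
lemma exists_coprime (n : ℕ) (hn : 0 < n)
    (hσ : ∑ p ∈ n.primeFactors, (1 / (p : ℝ)) < 1) (m : ℕ)
    (hm : ((n.primeFactors.card : ℝ) - ∑ p ∈ n.primeFactors, (1 / (p : ℝ))) /
      (1 - ∑ p ∈ n.primeFactors, (1 / (p : ℝ))) < (m : ℝ)) (a : ℤ) :
    ∃ i : ℕ, i < m ∧ IsCoprime (a + (i : ℤ)) (n : ℤ) := by
  by_contra hcon
  push Not at hcon
  have h1 := block_le n hn a m hcon
  have h2 : ((∑ p ∈ n.primeFactors, (m + p - 1) / p : ℕ) : ℝ) ≤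
      ∑ p ∈ n.primeFactors, ((m : ℝ) * (1 / (p : ℝ)) + 1 - 1 / (p : ℝ)) := by
    push_cast
    apply Finset.sum_le_sum
    intro p hp
    have hp0 : 0 < p := Nat.pos_of_mem_primeFactors hp
    have hp0' : (0 : ℝ) < (p : ℝ) := by exact_mod_cast hp0
    have h3 : (((m + p - 1) / p : ℕ) : ℝ) ≤ ((m + p - 1 : ℕ) : ℝ) / (p : ℝ) := Nat.cast_div_le
    have h4 : ((m + p - 1 : ℕ) : ℝ) = (m : ℝ) + (p : ℝ) - 1 := by
      rw [Nat.cast_sub (by omega)]; push_cast; ring
    rw [h4] at h3
    have h5 : ((m : ℝ) + (p : ℝ) - 1) / (p : ℝ) = (m : ℝ) * (1 / (p : ℝ)) + 1 - 1 / (p : ℝ) := by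
      field_simp
    rw [h5] at h3
    exact h3
  have h6 : ∑ p ∈ n.primeFactors, ((m : ℝ) * (1 / (p : ℝ)) + 1 - 1 / (p : ℝ)) =
      (m : ℝ) * (∑ p ∈ n.primeFactors, (1 / (p : ℝ))) + (n.primeFactors.card : ℝ)
        - ∑ p ∈ n.primeFactors, (1 / (p : ℝ)) := by
    rw [Finset.sum_sub_distrib, Finset.sum_add_distrib, ← Finset.mul_sum]
    simp
  have h7 : (m : ℝ) ≤ (m : ℝ) * (∑ p ∈ n.primeFactors, (1 / (p : ℝ))) + (n.primeFactors.card : ℝ)
        - ∑ p ∈ n.primeFactors, (1 / (p : ℝ)) := by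
    rw [← h6]
    exact le_trans (by exact_mod_cast h1) h2
  set s : ℝ := ∑ p ∈ n.primeFactors, (1 / (p : ℝ)) with hs
  have hpos : 0 < 1 - s := by linarith
  rw [div_lt_iff₀ hpos] at hm
  nlinarith

/-- Lower bound: `k` distinct primes can cover `k` consecutive integers. -/
lemma exists_block (n : ℕ) :
    ∃ a : ℤ, ∀ i : ℕ, i < n.primeFactors.card → ¬ IsCoprime (a + (i : ℤ)) (n : ℤ) := by
  classical
  set k := n.primeFactors.card with hk
  let e : Fin k → ℕ := fun i => n.primeFactors.orderEmbOfFin hk.symm i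
  have he_mem : ∀ i : Fin k, e i ∈ n.primeFactors := fun i =>
    Finset.orderEmbOfFin_mem n.primeFactors hk.symm i
  have he_inj : Function.Injective e := (n.primeFactors.orderEmbOfFin hk.symm).injective
  have hprime : ∀ i : Fin k, (e i).Prime := fun i => Nat.prime_of_mem_primeFactors (he_mem i)
  have hs : ∀ i ∈ (Finset.univ : Finset (Fin k)), e i ≠ 0 := fun i _ => (hprime i).ne_zero
  have hpp : Set.Pairwise (↑(Finset.univ : Finset (Fin k))) (Function.onFun Nat.Coprime e) := by
    intro i _ j _ hij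
    exact (Nat.coprime_primes (hprime i) (hprime j)).mpr (fun h => hij (he_inj h))
  obtain ⟨x, hx⟩ := Nat.chineseRemainderOfFinset (fun i : Fin k => (e i - 1) * (i : ℕ)) e
    Finset.univ hs hpp
  refine ⟨(x : ℤ), ?_⟩
  intro i hi hcop
  have hmod := hx ⟨i, hi⟩ (Finset.mem_univ _)
  simp only at hmod
  set p := e ⟨i, hi⟩ with hp
  have hpp' : p.Prime := hprime ⟨i, hi⟩
  have hdvd : p ∣ x + i := by
    have h1 : x + i ≡ (p - 1) * i + i [MOD p] := Nat.ModEq.add_right i hmod
    have h2 : (p - 1) * i + i = p * i := by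
      have : 1 ≤ p := hpp'.one_lt.le
      calc (p - 1) * i + i = (p - 1 + 1) * i := by ring
        _ = p * i := by rw [Nat.sub_add_cancel this]
    rw [h2] at h1
    exact (Nat.modEq_zero_iff_dvd).mp (h1.trans (Nat.modEq_zero_iff_dvd.mpr (dvd_mul_right p i)))
  have hpn : p ∣ n := Nat.dvd_of_mem_primeFactors (he_mem ⟨i, hi⟩)
  have h3 : IsCoprime ((x + i : ℕ) : ℤ) (n : ℤ) := by
    push_cast; exact hcop
  rw [Nat.isCoprime_iff_coprime] at h3
  have := Nat.eq_one_of_dvd_coprimes h3 hdvd hpn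
  exact hpp'.one_lt.ne' this

/-- **Jacobsthal's function is of linear order when the reciprocal sum is below one.**
Let `n` be a positive integer, `k` the number of distinct primes dividing `n` and `σ` the sum of
their reciprocals.  If `σ < 1` then `k + 1 ≤ j n ≤ (k - σ) / (1 - σ) + 1`. -/
theorem result (n : ℕ) (hn : 0 < n)
    (hσ : ∑ p ∈ n.primeFactors, (1 / (p : ℝ)) < 1) :
    n.primeFactors.card + 1 ≤ jacobsthal n ∧
    (jacobsthal n : ℝ) ≤ ((n.primeFactors.card : ℝ) - ∑ p ∈ n.primeFactors, (1 / (p : ℝ))) /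
      (1 - ∑ p ∈ n.primeFactors, (1 / (p : ℝ))) + 1 := by
  set s : ℝ := ∑ p ∈ n.primeFactors, (1 / (p : ℝ)) with hs
  set k := n.primeFactors.card with hk
  have hs0 : 0 ≤ s := by
    rw [hs]; apply Finset.sum_nonneg; intro p _; positivity
  have hpos : 0 < 1 - s := by linarith
  -- the bound as a natural number
  set B : ℝ := ((k : ℝ) - s) / (1 - s) with hB
  have hsk : s ≤ (k : ℝ) := by
    rw [hs, hk, Finset.card_eq_sum_ones]
    push_cast
    apply Finset.sum_le_sum
    intro p hp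
    have hp1 : (1 : ℝ) ≤ (p : ℝ) := by
      exact_mod_cast (Nat.pos_of_mem_primeFactors hp)
    rw [div_le_one (by linarith)]
    exact hp1
  have hB0 : 0 ≤ B := by rw [hB]; apply div_nonneg <;> linarith
  set m : ℕ := ⌊B⌋₊ + 1 with hm
  have hmB : B < (m : ℝ) := by
    rw [hm]; push_cast; exact Nat.lt_floor_add_one B
  have hmem : m ∈ {m : ℕ | 0 < m ∧ ∀ a : ℤ, ∃ i : ℕ, i < m ∧ IsCoprime (a + (i : ℤ)) (n : ℤ)} := by
    refine ⟨by omega, fun a => exists_coprime n hn hσ m ?_ a⟩
    exact hmB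
  constructor
  · -- lower bound
    have hne : {m : ℕ | 0 < m ∧ ∀ a : ℤ, ∃ i : ℕ, i < m ∧ IsCoprime (a + (i : ℤ)) (n : ℤ)}.Nonempty :=
      ⟨m, hmem⟩
    have hj := Nat.sInf_mem hne
    obtain ⟨a, ha⟩ := exists_block n
    obtain ⟨hj0, hj1⟩ := hj
    obtain ⟨i, hi, hic⟩ := hj1 a
    by_contra hlt
    push Not at hlt
    have : i < n.primeFactors.card := by
      unfold jacobsthal at hlt
      omega
    exact ha i this hic
  · -- upper bound
    have hle : jacobsthal n ≤ m := Nat.sInf_le hmem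
    have h1 : (jacobsthal n : ℝ) ≤ (m : ℝ) := by exact_mod_cast hle
    have h2 : (m : ℝ) ≤ B + 1 := by
      rw [hm]; push_cast
      have := Nat.floor_le hB0
      linarith
    linarith

end Vale.Agent.Results.P013.SmallReciprocalSum
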